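import Vale.Agent.P367T23.Defs
import Vale.Agent.P367.Gap.Values

/-!
# The tensor power of `ℂ²` in the computational basis
-/

open MeasureTheory ProbabilityTheory Matrix Module
open scoped TensorProduct

namespace Vale.Agent.P367T

open Vale.Agent.P367

noncomputable section

variable {n p : ℕ} {H : Type} [NormedAddCommGroup H] [InnerProductSpace ℂ H]

/-- The basis of `ℂ²`, indexed by bits. -/
def bq : OrthonormalBasis Bool ℂ Qb := (EuclideanSpace.basisFun (Fin 2) ℂ).reindex finTwoEquiv

theorem bq_false : bq false = EuclideanSpace.single 0 1 := by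
  simp [bq, finTwoEquiv]

theorem bq_true : bq true = EuclideanSpace.single 1 1 := by
  simp [bq, finTwoEquiv]

theorem pauliX_bq (b : Bool) : pauliX (bq b) = bq (!b) := by
  cases b
  · rw [Bool.not_false, bq_false, bq_true]
    ext i
    fin_cases i <;> simp [pauliX, matOp, Matrix.toLpLin_apply]
  · rw [Bool.not_true, bq_false, bq_true]
    ext i
    fin_cases i <;> simp [pauliX, matOp, Matrix.toLpLin_apply]

theorem pauliZ_bq (b : Bool) : pauliZ (bq b) = ((Gap.spin b : ℝ) : ℂ) • bq b := by
  cases b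
  · rw [bq_false]
    ext i
    fin_cases i <;> simp [pauliZ, matOp, Gap.spin, Matrix.toLpLin_apply]
  · rw [bq_true]
    ext i
    fin_cases i <;> simp [pauliZ, matOp, Gap.spin, Matrix.toLpLin_apply]

theorem repr_plus (b : Bool) : bq.toBasis.repr plus b = (((√2 : ℝ)⁻¹ : ℝ) : ℂ) := by
  rw [plus, ← bq_false, ← bq_true, map_smul, map_add, ← OrthonormalBasis.coe_toBasis,
    Basis.repr_self, Basis.repr_self]
  cases b <;> simp

/-- The computational basis. -/
def cb (e : Ident Qb n H) : Basis (Gap.Conf n) ℂ H :=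
  (Basis.piTensorProduct fun _ : Fin n => bq.toBasis).map (show Tens Qb n ≃ₗ[ℂ] H from e)

theorem cb_apply (e : Ident Qb n H) (s : Gap.Conf n) : cb e s = prodVec e fun i => bq (s i) := by
  rw [cb, Basis.map_apply, Basis.piTensorProduct_apply]
  rfl

theorem repr_prodVec (e : Ident Qb n H) (u : Fin n → Qb) (s : Gap.Conf n) :
    (cb e).repr (prodVec e u) s = ∏ i, bq.toBasis.repr (u i) (s i) := by
  rw [← Basis.piTensorProduct_repr_tprod_apply (fun _ : Fin n => bq.toBasis) u s, cb,
    Basis.map_repr, LinearEquiv.trans_apply]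
  exact congrArg (fun t => (Basis.piTensorProduct fun _ : Fin n => bq.toBasis).repr t s)
    (LinearEquiv.symm_apply_apply (show Tens Qb n ≃ₗ[ℂ] H from e) _)

theorem cb_orthonormal {e : Ident Qb n H} (he : IsHilbertPower e) : Orthonormal ℂ (cb e) := by
  rw [orthonormal_iff_ite]
  intro s t
  rw [cb_apply, cb_apply, he]
  simp only [orthonormal_iff_ite.1 bq.orthonormal, Fintype.prod_ite_zero, Finset.prod_const_one,
    ← funext_iff]

theorem inner_eq {e : Ident Qb n H} (he : IsHilbertPower e) (x y : H) :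
    inner ℂ x y = star ((cb e).equivFun x) ⬝ᵥ (cb e).equivFun y := by
  conv_lhs => rw [← (cb e).sum_equivFun x, ← (cb e).sum_equivFun y]
  rw [(cb_orthonormal he).inner_sum]
  rfl

variable [FiniteDimensional ℂ H]

theorem onFactor_prodVec {V : Type} [NormedAddCommGroup V] [InnerProductSpace ℂ V]
    (e : Ident V n H) (i : Fin n) (A : V →ₗ[ℂ] V) (u : Fin n → V) :
    onFactor e i A (prodVec e u) = prodVec e (Function.update u i (A (u i))) := by
  have h : PiTensorProduct.map (Function.update (fun _ => LinearMap.id) i A)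
      (PiTensorProduct.tprod ℂ u) =
      (PiTensorProduct.tprod ℂ (Function.update u i (A (u i))) : Tens V n) := by
    rw [PiTensorProduct.map_tprod]
    congr 1
    funext j
    by_cases hj : j = i
    · subst hj
      simp
    · simp [Function.update_of_ne hj]
  change (show Tens V n ≃ₗ[ℂ] H from e) (PiTensorProduct.map _
    ((show Tens V n ≃ₗ[ℂ] H from e).symm ((show Tens V n ≃ₗ[ℂ] H from e) _))) = _
  rw [LinearEquiv.symm_apply_apply, h]
  rfl

/-- The matrix of an operator in the computational basis. -/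
def mat (e : Ident Qb n H) : (H →L[ℂ] H) →ₐ[ℂ] Matrix (Gap.Conf n) (Gap.Conf n) ℂ :=
  (LinearMap.toMatrixAlgEquiv (cb e)).toAlgHom.comp
    { ContinuousLinearMap.toLinearMapRingHom with commutes' := fun _ => rfl }

omit [FiniteDimensional ℂ H] in
theorem mat_apply (e : Ident Qb n H) (A : H →L[ℂ] H) (s t : Gap.Conf n) :
    mat e A s t = (cb e).repr (A (cb e t)) s :=
  LinearMap.toMatrixAlgEquiv_apply (cb e) (A : H →ₗ[ℂ] H) s t

omit [FiniteDimensional ℂ H] in
theorem mat_mulVec (e : Ident Qb n H) (A : H →L[ℂ] H) (x : H) :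
    (cb e).equivFun (A x) = mat e A *ᵥ (cb e).equivFun x :=
  (LinearMap.toMatrix_mulVec_repr (cb e) (cb e) (A : H →ₗ[ℂ] H) x).symm

theorem mat_X (e : Ident Qb n H) (i : Fin n) : mat e (onFactor e i pauliX) = Gap.pauliX i := by
  ext s t
  have h : Function.update (fun j => bq (t j)) i (pauliX (bq (t i))) =
      fun j => bq (Function.update t i (!(t i)) j) := by
    rw [pauliX_bq]
    exact (Function.comp_update bq t i _).symm
  rw [mat_apply, cb_apply, onFactor_prodVec, h, ← cb_apply, Basis.repr_self,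
    Finsupp.single_apply, Gap.pauliX, Matrix.of_apply]
  exact if_congr eq_comm rfl rfl

theorem mat_Z (e : Ident Qb n H) (i : Fin n) : mat e (onFactor e i pauliZ) = Gap.pauliZ i := by
  ext s t
  have h : prodVec e (Function.update (fun j => bq (t j)) i (pauliZ (bq (t i)))) =
      ((Gap.spin (t i) : ℝ) : ℂ) • cb e t := by
    rw [pauliZ_bq, prodVec, MultilinearMap.map_update_smul, map_smul, cb_apply]
    congr 3
    exact Function.update_eq_self i _
  rw [mat_apply, cb_apply, onFactor_prodVec, h, map_smul, Basis.repr_self, Gap.pauliZ,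
    Matrix.diagonal_apply, Finsupp.smul_apply, Finsupp.single_apply]
  by_cases hst : s = t
  · subst hst
    simp
  · rw [if_neg hst, if_neg (Ne.symm hst), smul_zero]

theorem mat_cost (e : Ident Qb n H) (J : Pairs n → ℝ) : mat e (cost e pauliZ J) = Gap.costOp J := by
  simp only [cost, Gap.costOp, map_smul, map_sum, map_mul, mat_Z]

theorem mat_mix (e : Ident Qb n H) : mat e (mix e pauliX) = Gap.mixer n := by
  simp only [mix, Gap.mixer, map_sum, mat_X]

open scoped Matrix.Norms.Operator in
theorem mat_evol (e : Ident Qb n H) (t : ℝ) (A : H →L[ℂ] H) :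
    mat e (evol t A) = NormedSpace.exp ((-(Complex.I * t)) • mat e A) := by
  have : CompleteSpace H := FiniteDimensional.complete ℂ H
  have hc : Continuous (mat e) := (mat e).toLinearMap.continuous_of_finiteDimensional
  rw [evol, ← map_smul]
  exact NormedSpace.map_exp_of_mem_ball (𝕂 := ℂ) (mat e) hc _
    ((NormedSpace.expSeries_radius_eq_top ℂ (H →L[ℂ] H)).symm ▸ edist_lt_top _ _)

omit [FiniteDimensional ℂ H] in
theorem circuit_succ (B C : H →L[ℂ] H) (γ β : Fin (p + 1) → ℝ) :
    circuit B C γ β = evol (β (Fin.last p)) B * evol (γ (Fin.last p)) C *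
      circuit B C (fun k => γ k.castSucc) fun k => β k.castSucc := by
  rw [circuit, List.ofFn_succ', List.concat_eq_append, List.reverse_concat, List.prod_cons]
  rfl

theorem state_eq (e : Ident Qb n H) (J : Pairs n → ℝ) (γ β : Fin p → ℝ) :
    (cb e).equivFun (circuit (mix e pauliX) (cost e pauliZ J) γ β (prodVec e fun _ => plus)) =
      Gap.qaoaState J p γ β := by
  induction p with
  | zero =>
    funext s
    change (cb e).repr (prodVec e fun _ => plus) s = _
    rw [repr_prodVec]
    simp only [repr_plus, Finset.prod_const, Finset.card_univ, Fintype.card_fin, Gap.qaoaState,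
      Gap.plusState, Complex.ofReal_pow]
  | succ p ih =>
    rw [circuit_succ, mul_apply_eq_comp, mul_apply_eq_comp, mat_mulVec,
      mat_mulVec, ih, mat_evol, mat_evol, mat_mix, mat_cost]
    rfl

theorem qaoa_eq {e : Ident Qb n H} (he : IsHilbertPower e) (J : Pairs n → ℝ) (γ β : Fin p → ℝ) :
    qaoa e J γ β = star (Gap.qaoaState J p γ β) ⬝ᵥ (Gap.costOp J *ᵥ Gap.qaoaState J p γ β) := by
  rw [qaoa, meanOf, inner_eq he, mat_mulVec e (cost e pauliZ J), state_eq, mat_cost]

theorem exists_power (n : ℕ) : ∃ (H : Type) (_ : NormedAddCommGroup H) (_ : InnerProductSpace ℂ H)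
    (_ : FiniteDimensional ℂ H) (e : Ident Qb n H), IsHilbertPower e := by
  let B := Basis.piTensorProduct fun _ : Fin n => bq.toBasis
  let e : Tens Qb n ≃ₗ[ℂ] EuclideanSpace ℂ (Gap.Conf n) :=
    B.equivFun ≪≫ₗ (WithLp.linearEquiv 2 ℂ (Gap.Conf n → ℂ)).symm
  refine ⟨EuclideanSpace ℂ (Gap.Conf n), inferInstance, inferInstance, inferInstance, e,
    fun u w => ?_⟩
  have h : ∀ (u : Fin n → Qb) (s : Gap.Conf n),
      (prodVec (V := Qb) e u : EuclideanSpace ℂ (Gap.Conf n)) s = ∏ i, bq.repr (u i) (s i) :=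
    fun u s => Basis.piTensorProduct_repr_tprod_apply (fun _ : Fin n => bq.toBasis) u s
  have h2 : ∀ i, inner ℂ (u i) (w i) = ∑ b, inner ℂ (bq.repr (u i) b) (bq.repr (w i) b) :=
    fun i => (bq.repr.inner_map_map (u i) (w i)).symm.trans (PiLp.inner_apply _ _)
  rw [PiLp.inner_apply]
  simp only [h, h2, RCLike.inner_apply, map_prod, ← Finset.prod_mul_distrib]
  rw [Finset.prod_univ_sum, Fintype.piFinset_univ]

theorem values_eq (J : Pairs n → ℝ) : values J = Set.range (Gap.skEnergy J) := by
  have h : ∀ s : Gap.Conf n, ham J (fun i => Gap.spin (s i)) = Gap.skEnergy J s := fun s => by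
    simp only [ham, Gap.skEnergy, mul_assoc]
  ext x
  constructor
  · rintro ⟨σ, hσ, rfl⟩
    refine ⟨fun i => decide (σ i = -1), (h _).symm.trans (congrArg (ham J) (funext fun i => ?_))⟩
    rcases hσ i with h1 | h1
    · simp [Gap.spin, h1]
    · have h2 : ¬ σ i = -1 := by rw [h1]; norm_num
      rw [decide_eq_false h2, h1]
      rfl
  · rintro ⟨s, rfl⟩
    refine ⟨_, fun i => ?_, h s⟩
    cases s i <;> simp [Gap.spin]

theorem ground_eq (J : Pairs n → ℝ) : ground J = ⨆ s, Gap.skEnergy J s := by
  rw [ground, values_eq]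
  rfl

theorem isGreatest_ground (J : Pairs n → ℝ) : IsGreatest (values J) (ground J) := by
  rw [ground, values_eq]
  exact (Set.range_nonempty _).csSup_mem (Set.finite_range _) |> fun h =>
    ⟨h, fun x hx => le_csSup (Set.finite_range _).bddAbove hx⟩

theorem IsCouplings.hasLaw {Ω : Type} [MeasurableSpace Ω] {P : Measure Ω} {J : Ω → Pairs n → ℝ}
    (h : IsCouplings P J) : HasLaw J (Gap.couplingLaw n) P :=
  h.2.1.hasLaw_pi h.2.2

theorem exists_couplings (n : ℕ) : ∃ (Ω : Type) (_ : MeasurableSpace Ω) (P : Measure Ω)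
    (J : Ω → Pairs n → ℝ), IsCouplings P J :=
  ⟨Pairs n → ℝ, inferInstance, Measure.pi fun _ => gaussianReal 0 1, id, inferInstance,
    iIndepFun_pi (X := fun _ => id) fun _ => aemeasurable_id,
    fun e => (measurePreserving_eval (fun _ => gaussianReal 0 1) e).hasLaw⟩

end

end Vale.Agent.P367T
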