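import Mathlib.Analysis.InnerProductSpace.PiL2
import Mathlib.Analysis.InnerProductSpace.Adjoint
import Mathlib.Analysis.Normed.Algebra.Exponential
import Mathlib.LinearAlgebra.PiTensorProduct.Basis
import Mathlib.Probability.HasLaw
import Mathlib.Probability.Distributions.Gaussian.Real

/-!
# The QAOA circuit on the tensor power of `ℂ²`, with random couplings
-/

open MeasureTheory ProbabilityTheory
open scoped TensorProduct

namespace Vale.Agent.P367T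

noncomputable section

variable {n p : ℕ}

/-- The pairs `i < j`. -/
abbrev Pairs (n : ℕ) : Type := {e : Fin n × Fin n // e.1 < e.2}

/-- The couplings `J_ij`, `i < j`, are independent standard Gaussian random variables. -/
def IsCouplings {Ω : Type} [MeasurableSpace Ω] (P : Measure Ω) (J : Ω → Pairs n → ℝ) : Prop :=
  IsProbabilityMeasure P ∧ iIndepFun (fun e ω => J ω e) P ∧
    ∀ e, HasLaw (fun ω => J ω e) (gaussianReal 0 1) P

/-- The SK Hamiltonian `h_{n,J}(σ)`. -/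
def ham (J : Pairs n → ℝ) (σ : Fin n → ℝ) : ℝ :=
  (√(n : ℝ))⁻¹ * ∑ e : Pairs n, J e * σ e.1.1 * σ e.1.2

/-- The values of `h_{n,J}` on `{-1, 1}^n`. -/
def values (J : Pairs n → ℝ) : Set ℝ := ham J '' {σ | ∀ i, σ i = -1 ∨ σ i = 1}

/-- `max_σ h_{n,J}(σ)`. -/
def ground (J : Pairs n → ℝ) : ℝ := sSup (values J)

section General

variable {V H : Type} [NormedAddCommGroup V] [InnerProductSpace ℂ V] [NormedAddCommGroup H]
  [InnerProductSpace ℂ H]

/-- The algebraic tensor power `V ⊗ ⋯ ⊗ V` with `n` factors. -/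
abbrev Tens (V : Type) [NormedAddCommGroup V] [InnerProductSpace ℂ V] (n : ℕ) : Type :=
  ⨂[ℂ] _ : Fin n, V

/-- An identification of the tensor power with a space `H`. -/
def Ident (V : Type) [NormedAddCommGroup V] [InnerProductSpace ℂ V] (n : ℕ) (H : Type)
    [NormedAddCommGroup H] [InnerProductSpace ℂ H] : Type :=
  Tens V n ≃ₗ[ℂ] H

/-- The product vector `u_1 ⊗ ⋯ ⊗ u_n`. -/
def prodVec (e : Ident V n H) (u : Fin n → V) : H :=
  LinearEquiv.toLinearMap e (PiTensorProduct.tprod ℂ u)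

/-- `H` is the Hilbert space `V^{⊗ n}`: the inner product of product vectors is the product of
the inner products of the factors. -/
def IsHilbertPower (e : Ident V n H) : Prop :=
  ∀ u w : Fin n → V, inner ℂ (prodVec e u) (prodVec e w) = ∏ i, inner ℂ (u i) (w i)

variable [FiniteDimensional ℂ H]

/-- The operator `1 ⊗ ⋯ ⊗ A ⊗ ⋯ ⊗ 1`, with `A` acting on the factor `i`. -/
def onFactor (e : Ident V n H) (i : Fin n) (A : V →ₗ[ℂ] V) : H →L[ℂ] H :=
  LinearMap.toContinuousLinearMap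
    (LinearEquiv.conj e (PiTensorProduct.map (Function.update (fun _ => LinearMap.id) i A)))

/-- `C_{n,J} = n^{-1/2} ∑_{i<j} J_ij Z_i Z_j`. -/
def cost (e : Ident V n H) (Z : V →ₗ[ℂ] V) (J : Pairs n → ℝ) : H →L[ℂ] H :=
  (((√(n : ℝ))⁻¹ : ℝ) : ℂ) • ∑ a : Pairs n, (J a : ℂ) • (onFactor e a.1.1 Z * onFactor e a.1.2 Z)

/-- `B_n = ∑ X_i`. -/
def mix (e : Ident V n H) (X : V →ₗ[ℂ] V) : H →L[ℂ] H := ∑ i : Fin n, onFactor e i X

/-- `e^{-i t A}`. -/
def evol (t : ℝ) (A : H →L[ℂ] H) : H →L[ℂ] H := NormedSpace.exp ((-(Complex.I * t)) • A)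

/-- `e^{-i β_p B} e^{-i γ_p C} ⋯ e^{-i β_1 B} e^{-i γ_1 C}`. -/
def circuit (B C : H →L[ℂ] H) (γ β : Fin p → ℝ) : H →L[ℂ] H :=
  (List.ofFn fun k => evol (β k) B * evol (γ k) C).reverse.prod

/-- `⟨ψ|C|ψ⟩` for `ψ = circuit (u ⊗ ⋯ ⊗ u)`. -/
def meanOf (e : Ident V n H) (X Z : V →ₗ[ℂ] V) (u : V) (J : Pairs n → ℝ) (γ β : Fin p → ℝ) : ℂ :=
  inner ℂ (circuit (mix e X) (cost e Z J) γ β (prodVec e fun _ => u))
    (cost e Z J (circuit (mix e X) (cost e Z J) γ β (prodVec e fun _ => u)))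

end General

/-- The Hilbert space `ℂ²`. -/
abbrev Qb : Type := EuclideanSpace ℂ (Fin 2)

/-- The operator on `ℂ²` with matrix `M`. -/
def matOp (M : Matrix (Fin 2) (Fin 2) ℂ) : Qb →ₗ[ℂ] Qb := Matrix.toEuclideanLin M

/-- The Pauli matrix `X`. -/
def pauliX : Qb →ₗ[ℂ] Qb := matOp !![0, 1; 1, 0]

/-- The Pauli matrix `Z`. -/
def pauliZ : Qb →ₗ[ℂ] Qb := matOp !![1, 0; 0, -1]

/-- `|+⟩ = (|0⟩ + |1⟩) / √2`. -/
def plus : Qb := ((√2 : ℝ) : ℂ)⁻¹ • (EuclideanSpace.single 0 1 + EuclideanSpace.single 1 1)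

/-- `⟨ψ_{n,p,J}(γ, β)|C_{n,J}|ψ_{n,p,J}(γ, β)⟩`. -/
def qaoa {H : Type} [NormedAddCommGroup H] [InnerProductSpace ℂ H] [FiniteDimensional ℂ H]
    (e : Ident Qb n H) (J : Pairs n → ℝ) (γ β : Fin p → ℝ) : ℂ :=
  meanOf e pauliX pauliZ plus J γ β

end

end Vale.Agent.P367T
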