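import Vale.Agent.P367T23.Br
import Vale.Agent.P367.Bd3.B10

/-!
# The QAOA values on the tensor power, and their limits
-/

open MeasureTheory ProbabilityTheory Matrix Filter Topology

namespace Vale.Agent.P367T

open Vale.Agent.P367

variable {n p : ℕ}

theorem dot_eq (J : Pairs n → ℝ) (γ β : Fin p → ℝ) :
    star (Gap.qaoaState J p γ β) ⬝ᵥ (Gap.costOp J *ᵥ Gap.qaoaState J p γ β) =
      ((Gap.qaoaMean J p γ β : ℝ) : ℂ) := by
  rw [Gap.qaoaMean_eq, Gap.costOp_eq, dotProduct]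
  push_cast
  refine Finset.sum_congr rfl fun s _ => ?_
  rw [Matrix.mulVec_diagonal]
  simp only [Pi.star_apply, RCLike.star_def]
  rw [mul_left_comm, mul_comm ((starRingEnd ℂ) _), Complex.mul_conj, Complex.normSq_eq_norm_sq]
  push_cast
  ring

theorem integrable_mean (γ β : Fin p → ℝ) :
    Integrable (fun J : Pairs n → ℝ => Gap.qaoaMean J p γ β) (Gap.couplingLaw n) := by
  simp only [Gap.qaoaMean_eq]
  refine integrable_finsetSum _ fun s _ => ?_
  refine (Gap.integrable_energy s).abs.mono' ?_ (Eventually.of_forall fun J => ?_)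
  · exact (((Lim.continuous_state p γ β s).norm.pow 2).mul
      (Gap.continuous_skEnergy s)).aestronglyMeasurable
  · have h : ‖Gap.qaoaState J p γ β s‖ ^ 2 ≤ 1 := by
      rw [← Lim.sum_state_sq J p γ β]
      exact Finset.single_le_sum (f := fun s => ‖Gap.qaoaState J p γ β s‖ ^ 2)
        (fun s _ => by positivity) (Finset.mem_univ s)
    rw [norm_mul, Real.norm_eq_abs, Real.norm_eq_abs, abs_of_nonneg (by positivity)]
    exact mul_le_of_le_one_left (abs_nonneg _) h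

theorem integrable_ground :
    Integrable (fun J : Pairs n → ℝ => ⨆ s, Gap.skEnergy J s) (Gap.couplingLaw n) :=
  Gap.integrable_iSup (fun (s : Gap.Conf n) (J : Pairs n → ℝ) => Gap.skEnergy J s)
    (fun s => Gap.integrable_energy s) fun s => (Gap.continuous_skEnergy s).measurable

section

variable {Ω : Type} [MeasurableSpace Ω] {P : Measure Ω} {J : Ω → Pairs n → ℝ}

theorem IsCouplings.integrable {E : Type} [NormedAddCommGroup E] (h : IsCouplings P J)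
    {f : (Pairs n → ℝ) → E} (hf : Integrable f (Gap.couplingLaw n)) :
    Integrable (fun ω => f (J ω)) P := by
  rw [← h.hasLaw.map_eq] at hf
  exact hf.comp_aemeasurable h.hasLaw.aemeasurable

theorem IsCouplings.ground (h : IsCouplings P J) : Integrable (fun ω => ground (J ω)) P ∧
    (n : ℝ)⁻¹ * ∫ ω, ground (J ω) ∂P = Gap.groundValue n := by
  simp only [ground_eq]
  exact ⟨h.integrable integrable_ground,
    congrArg _ (h.hasLaw.integral_comp integrable_ground.aestronglyMeasurable)⟩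

theorem IsCouplings.qaoa (h : IsCouplings P J) {H : Type} [NormedAddCommGroup H]
    [InnerProductSpace ℂ H] [FiniteDimensional ℂ H] {e : Ident Qb n H} (he : IsHilbertPower e)
    (γ β : Fin p → ℝ) : Integrable (fun ω => qaoa e (J ω) γ β) P ∧
      (n : ℂ)⁻¹ * ∫ ω, qaoa e (J ω) γ β ∂P = ((Gap.qaoaValue n p γ β : ℝ) : ℂ) := by
  simp only [qaoa_eq he, dot_eq]
  refine ⟨(h.integrable (integrable_mean γ β)).ofReal, ?_⟩
  have h1 : ∫ ω, Gap.qaoaMean (J ω) p γ β ∂P = ∫ K, Gap.qaoaMean K p γ β ∂Gap.couplingLaw n :=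
    h.hasLaw.integral_comp (integrable_mean γ β).aestronglyMeasurable
  rw [integral_complex_ofReal, h1, Gap.qaoaValue]
  push_cast
  rfl

end

theorem isLUB_Qsup (p : ℕ) : IsLUB {x | ∃ γ β, Gap.vLim p γ β = x} (Gap.Qsup p) := by
  have h : {x | ∃ γ β, Gap.vLim p γ β = x} =
      Set.range fun a : (Fin p → ℝ) × (Fin p → ℝ) => Gap.vLim p a.1 a.2 :=
    Set.ext fun x => ⟨fun ⟨γ, β, h⟩ => ⟨(γ, β), h⟩, fun ⟨a, h⟩ => ⟨a.1, a.2, h⟩⟩
  rw [h]
  exact isLUB_ciSup (Lim.bdd_vLim p)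

theorem exists_eps {ε : ℝ} (hε : 0 < ε) :
    ∃ p, 1 ≤ p ∧ ∃ γ β : Fin p → ℝ, Gap.Pstar - ε ≤ Gap.vLim p γ β := by
  obtain ⟨p, hp, h⟩ := ((eventually_ge_atTop 1).and
    (tendsto_Qsup_Pstar.eventually (lt_mem_nhds (sub_lt_self Gap.Pstar hε)))).exists
  obtain ⟨_, ⟨γ, β, rfl⟩, h1, -⟩ := (isLUB_Qsup p).exists_between h
  exact ⟨p, hp, γ, β, h1.le⟩

theorem main :
    (∀ n : ℕ, ∃ (H : Type) (_ : NormedAddCommGroup H) (_ : InnerProductSpace ℂ H)
      (_ : FiniteDimensional ℂ H) (e : Ident Qb n H), IsHilbertPower e) ∧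
    (∀ n : ℕ, ∃ (Ω : Type) (_ : MeasurableSpace Ω) (P : Measure Ω) (J : Ω → Pairs n → ℝ),
      IsCouplings P J) ∧
    (∀ (n : ℕ) (J : Pairs n → ℝ), IsGreatest (values J) (ground J)) ∧
    ∃ (Pst : ℝ) (v : ∀ p : ℕ, (Fin p → ℝ) → (Fin p → ℝ) → ℝ) (Q : ℕ → ℝ),
      (∀ (Ω : ℕ → Type) [∀ n, MeasurableSpace (Ω n)] (P : ∀ n, Measure (Ω n))
        (J : ∀ n, Ω n → Pairs n → ℝ), (∀ n, IsCouplings (P n) (J n)) →
        (∀ n, Integrable (fun ω => ground (J n ω)) (P n)) ∧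
        Tendsto (fun n : ℕ => (n : ℝ)⁻¹ * ∫ ω, ground (J n ω) ∂P n) atTop (𝓝 Pst) ∧
        ∀ (H : ℕ → Type) [∀ n, NormedAddCommGroup (H n)] [∀ n, InnerProductSpace ℂ (H n)]
          [∀ n, FiniteDimensional ℂ (H n)] (e : ∀ n, Ident Qb n (H n)),
          (∀ n, IsHilbertPower (e n)) → ∀ (p : ℕ) (γ β : Fin p → ℝ),
          (∀ n, Integrable (fun ω => qaoa (e n) (J n ω) γ β) (P n)) ∧
          Tendsto (fun n : ℕ => (n : ℂ)⁻¹ * ∫ ω, qaoa (e n) (J n ω) γ β ∂P n) atTop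
            (𝓝 (v p γ β : ℂ))) ∧
      (∀ p, IsLUB {x | ∃ γ β, v p γ β = x} (Q p)) ∧ (∀ p, Q p < Pst) ∧ Monotone Q ∧
      Tendsto Q atTop (𝓝 Pst) ∧
      ∀ ε : ℝ, 0 < ε → ∃ p, 1 ≤ p ∧ ∃ γ β : Fin p → ℝ, Pst - ε ≤ v p γ β := by
  refine ⟨exists_power, exists_couplings, fun _ => isGreatest_ground, Gap.Pstar, Gap.vLim,
    Gap.Qsup, fun Ω _ P J hJ => ⟨fun n => (hJ n).ground.1, ?_, fun H _ _ _ e he p γ β =>
      ⟨fun n => ((hJ n).qaoa (he n) γ β).1, ?_⟩⟩, isLUB_Qsup,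
    fun p => (Lim.Qsup_le p).trans_lt (sub_lt_self _ (Real.exp_pos _)), NI.Qsup_mono,
    tendsto_Qsup_Pstar, fun ε hε => exists_eps hε⟩
  · exact Lim.tendsto_Pstar.congr fun n => (hJ n).ground.2.symm
  · exact ((Complex.continuous_ofReal.tendsto _).comp (Lim.tendsto_vLim p γ β)).congr
      fun n => ((hJ n).qaoa (he n) γ β).2.symm

end Vale.Agent.P367T
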